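import Vale.Agent.P130.Simple.Wait.Defs

/-! The coefficients of the step phases. -/

namespace Vale.Agent.P130.Simple.Wait

open Finset MeasureTheory
open scoped BigOperators
open Vale.Agent.P110.Flat (ee dot)

theorem ee_zero' : ee 0 = 1 := by simp [ee]

theorem ee_add' (x y : ℝ) : ee (x + y) = ee x * ee y := by
  simp only [ee, ← Complex.exp_add]; congr 1; push_cast; ring

theorem ee_int' (z : ℤ) : ee (z : ℝ) = 1 := by
  simp only [ee]
  rw [show (2 : ℂ) * Real.pi * ((z : ℝ) : ℂ) * Complex.I = (z : ℂ) * (2 * Real.pi * Complex.I) by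
    push_cast; ring]
  exact Complex.exp_int_mul_two_pi_mul_I z

theorem norm_ee' (x : ℝ) : ‖ee x‖ = 1 := by
  simp only [ee, Complex.norm_exp]; simp

theorem continuous_ee' : Continuous ee := by
  unfold ee; fun_prop

theorem conj_ee'' (x : ℝ) : starRingEnd ℂ (ee x) = ee (-x) := by
  simp [ee, ← Complex.exp_conj, map_ofNat]

theorem ee_sum' {ι : Type} (s : Finset ι) (f : ι → ℝ) : ee (∑ i ∈ s, f i) = ∏ i ∈ s, ee (f i) := by
  simp only [ee]
  rw [← Complex.exp_sum]
  congr 1
  push_cast
  rw [Finset.mul_sum, Finset.sum_mul]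

/-- Phases depend on the class only. -/
theorem phase_congr (G : ℕ) {l l' : ℤ} (h : (G : ℤ) ∣ l - l') (x : ℝ) :
    phase G l x = phase G l' x := by
  rcases Nat.eq_zero_or_pos G with hG | hG
  · subst hG; simp [phase]
  obtain ⟨z, hz⟩ := h
  have hl : (l : ℝ) = l' + (G : ℝ) * z := by
    have : l = l' + (G : ℤ) * z := by linarith
    exact_mod_cast this
  have hG' : (G : ℝ) ≠ 0 := by positivity
  simp only [phase]
  rw [show (l : ℝ) * (⌊(G : ℝ) * x⌋ : ℝ) / G =
    (l' : ℝ) * (⌊(G : ℝ) * x⌋ : ℝ) / G + ((z * ⌊(G : ℝ) * x⌋ : ℤ) : ℝ) by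
      rw [hl]; push_cast; field_simp]
  rw [ee_add', ee_int', mul_one]

theorem norm_phase (G : ℕ) (l : ℤ) (x : ℝ) : ‖phase G l x‖ = 1 := norm_ee' _

theorem measurable_phase (G : ℕ) (l : ℤ) : Measurable (phase G l) := by
  unfold phase
  refine continuous_ee'.measurable.comp ?_
  fun_prop

theorem intervalIntegrable_phase (G : ℕ) (l : ℤ) (c : ℝ) (a b : ℝ) :
    IntervalIntegrable (fun x => phase G l x * ee (c * x)) volume a b := by
  rw [intervalIntegrable_iff]
  refine Measure.integrableOn_of_bounded (M := 1) measure_Ioc_lt_top.ne ?_ ?_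
  · exact ((measurable_phase G l).mul
      (continuous_ee'.measurable.comp (measurable_const.mul measurable_id))).aestronglyMeasurable
  · refine Filter.Eventually.of_forall fun x => ?_
    simp [norm_phase, norm_ee']

/-- The coefficient is an integral over the first step. -/
theorem b_eq {G : ℕ} (hG : 0 < G) (n : ℤ) :
    b G n = (G : ℂ) * ∫ x in (0 : ℝ)..1 / G, ee (-((n : ℝ) * x)) := by
  have hG' : (0 : ℝ) < G := by exact_mod_cast hG
  set a : ℕ → ℝ := fun j => (j : ℝ) / G with ha
  have hint : ∀ p q : ℝ, IntervalIntegrable (fun x => phase G n x * ee (-((n : ℝ) * x))) volume p q :=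
    fun p q => by
      simpa only [neg_mul] using intervalIntegrable_phase G n (-(n : ℝ)) p q
  have hsum := intervalIntegral.sum_integral_adjacent_intervals (μ := volume) (n := G) (a := a)
    (f := fun x => phase G n x * ee (-((n : ℝ) * x))) fun k _ => hint _ _
  have hterm : ∀ j, j < G → (∫ x in a j..a (j + 1), phase G n x * ee (-((n : ℝ) * x))) =
      ∫ x in (0 : ℝ)..1 / G, ee (-((n : ℝ) * x)) := by
    intro j _
    have hle : a j ≤ a (j + 1) := by
      simp only [ha]; push_cast; gcongr; linarith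
    have h1 : (∫ x in a j..a (j + 1), phase G n x * ee (-((n : ℝ) * x))) =
        ∫ x in a j..a (j + 1), ee ((n : ℝ) * j / G) * ee (-((n : ℝ) * x)) := by
      refine intervalIntegral.integral_congr_ae ?_
      have hne : ∀ᵐ x : ℝ, x ≠ a (j + 1) := by simp [ae_iff]
      filter_upwards [hne] with x hx hmem
      rw [Set.uIoc_of_le hle] at hmem
      have hx1 : (j : ℝ) < G * x := by
        have := hmem.1
        simp only [ha, div_lt_iff₀ hG'] at this
        linarith
      have hx2 : (G : ℝ) * x < j + 1 := by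
        have := lt_of_le_of_ne hmem.2 hx
        simp only [ha, lt_div_iff₀ hG'] at this
        push_cast at this
        linarith
      have hfl : ⌊(G : ℝ) * x⌋ = (j : ℤ) := by
        rw [Int.floor_eq_iff]; push_cast; exact ⟨hx1.le, hx2⟩
      simp only [phase, hfl, Int.cast_natCast]
    rw [h1]
    have h2 : (∫ x in a j..a (j + 1), ee ((n : ℝ) * j / G) * ee (-((n : ℝ) * x))) =
        ∫ x in (0 : ℝ)..1 / G, ee ((n : ℝ) * j / G) * ee (-((n : ℝ) * (a j + x))) := by
      rw [intervalIntegral.integral_comp_add_left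
        (fun x => ee ((n : ℝ) * j / G) * ee (-((n : ℝ) * x))) (a j)]
      congr 1
      · simp
      · simp only [ha]; push_cast; ring
    rw [h2]
    refine intervalIntegral.integral_congr fun x _ => ?_
    rw [← ee_add']
    congr 1
    simp only [ha]; ring
  rw [Finset.sum_congr rfl (fun j hj => hterm j (Finset.mem_range.1 hj))] at hsum
  simp only [Finset.sum_const, Finset.card_range, nsmul_eq_mul] at hsum
  rw [b, hsum]
  simp [ha, hG'.ne']

theorem b_closed {G : ℕ} (hG : 0 < G) {n : ℤ} (hn : n ≠ 0) :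
    b G n = (G : ℂ) * ((1 - ee (-((n : ℝ) / G))) / (2 * Real.pi * n * Complex.I)) := by
  rw [b_eq hG n]
  congr 1
  have hc : (-(2 * Real.pi * n * Complex.I) : ℂ) ≠ 0 := by
    simp [Real.pi_ne_zero, hn, Complex.I_ne_zero]
  have he : ∀ x : ℝ, ee (-((n : ℝ) * x)) = Complex.exp (-(2 * Real.pi * n * Complex.I) * x) := by
    intro x; simp only [ee]; congr 1; push_cast; ring
  simp only [he]
  rw [integral_exp_mul_complex hc]
  have : ee (-((n : ℝ) / G)) = Complex.exp (-(2 * Real.pi * n * Complex.I) * ((1 / G : ℝ) : ℂ)) := by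
    rw [← he]; congr 1; ring
  rw [this]
  simp only [Complex.ofReal_zero, mul_zero, Complex.exp_zero]
  rw [div_neg, neg_div', neg_sub]

theorem b_ne_zero {G : ℕ} (hG : 0 < G) {n : ℤ} (hn : ¬ (G : ℤ) ∣ n) : b G n ≠ 0 := by
  have hn0 : n ≠ 0 := fun h => hn (h ▸ dvd_zero _)
  rw [b_closed hG hn0]
  refine mul_ne_zero (by exact_mod_cast hG.ne') (div_ne_zero ?_ ?_)
  · intro h
    have h1 : ee (-((n : ℝ) / G)) = 1 := (sub_eq_zero.1 h).symm
    simp only [ee, Complex.exp_eq_one_iff] at h1
    obtain ⟨m, hm⟩ := h1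
    have hm' : ((-((n : ℝ) / G) : ℝ) : ℂ) = ((m : ℝ) : ℂ) := by
      have h2 : (2 * (Real.pi : ℂ) * Complex.I) ≠ 0 := by
        simp [Real.pi_ne_zero, Complex.I_ne_zero]
      apply mul_left_cancel₀ h2
      push_cast at hm ⊢
      linear_combination hm
    have hm'' : -((n : ℝ) / G) = (m : ℝ) := Complex.ofReal_injective hm'
    have hG' : (G : ℝ) ≠ 0 := by positivity
    have : (n : ℝ) = -(G : ℝ) * m := by
      field_simp at hm''
      linarith
    have : n = -(G : ℤ) * m := by exact_mod_cast this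
    exact hn ⟨-m, by rw [this]; ring⟩
  · simp [Real.pi_ne_zero, hn0, Complex.I_ne_zero]

theorem norm_b_neg (G : ℕ) (n : ℤ) : ‖b G (-n)‖ = ‖b G n‖ := by
  have h : b G (-n) = starRingEnd ℂ (b G n) := by
    rw [b, b]
    simp only [intervalIntegral.integral_of_le (zero_le_one : (0 : ℝ) ≤ 1)]
    rw [← integral_conj]
    refine integral_congr_ae (Filter.Eventually.of_forall fun x => ?_)
    simp only [map_mul, conj_ee'', phase]
    congr 2 <;> push_cast <;> ring
  rw [h, Complex.norm_conj]

theorem norm_b_le_one (G : ℕ) (n : ℤ) : ‖b G n‖ ≤ 1 := by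
  have := intervalIntegral.norm_integral_le_of_norm_le_const (a := (0 : ℝ)) (b := 1) (C := 1)
    (f := fun x => phase G n x * ee (-((n : ℝ) * x))) fun x _ => by simp [norm_phase, norm_ee']
  simpa [b] using this

theorem amp_pos {G M : ℕ} (hG : 2 ≤ G) {n : Fin M → ℤ} (hn : n = 0 ∨ Valid G n) : 0 < amp G n := by
  have hG' : (2 : ℝ) ≤ G := by exact_mod_cast hG
  unfold amp
  split_ifs with h
  · rw [sub_pos, div_lt_one (by linarith)]; linarith
  · refine mul_pos (by positivity) (Finset.prod_pos fun i _ => norm_pos_iff.2 ?_)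
    exact b_ne_zero (by omega) ((hn.resolve_left h).1 i)

theorem amp_neg (G : ℕ) {M : ℕ} (n : Fin M → ℤ) : amp G (-n) = amp G n := by
  unfold amp
  simp [norm_b_neg]

theorem valid_neg {G M : ℕ} {n : Fin M → ℤ} (h : Valid G n) : Valid G (-n) :=
  ⟨fun i => by simpa using h.1 i, fun i j => by
    have := h.2 j i
    rw [Pi.neg_apply, Pi.neg_apply, neg_sub_neg]
    exact this⟩

end Vale.Agent.P130.Simple.Wait
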