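import Vale.Agent.P130.Simple.Defs

/-!
The waiting time on the torus: step phases, their coefficients and the amplitude of one block.
-/

namespace Vale.Agent.P130.Simple.Wait

open Finset MeasureTheory
open scoped BigOperators
open Vale.Agent.P110.Flat (ee dot)

/-- The step phase `exp (2 π i l ⌊G x⌋ / G)`. -/
noncomputable def phase (G : ℕ) (l : ℤ) (x : ℝ) : ℂ :=
  ee ((l : ℝ) * (⌊(G : ℝ) * x⌋ : ℝ) / G)

/-- The Fourier coefficient at `n` of the step phase of the class of `n`. -/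
noncomputable def b (G : ℕ) (n : ℤ) : ℂ :=
  ∫ x in (0 : ℝ)..1, phase G n x * ee (-((n : ℝ) * x))

/-- All entries are in one nonzero class modulo `G`. -/
def Valid (G : ℕ) {M : ℕ} (n : Fin M → ℤ) : Prop :=
  (∀ i, ¬ (G : ℤ) ∣ n i) ∧ ∀ i j, (G : ℤ) ∣ n i - n j

/-- The modulus of the coefficient of one block. -/
noncomputable def amp (G : ℕ) {M : ℕ} (n : Fin M → ℤ) : ℝ :=
  if n = 0 then 1 - 1 / (G : ℝ) else 1 / (G : ℝ) * ∏ i, ‖b G (n i)‖

end Vale.Agent.P130.Simple.Wait
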